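import Vale.Agent.P218WA.Props

/-! Team P218W, block VISC: integrability along the track and Green's inequality on strips. -/

open MeasureTheory Set Filter Topology Metric
open scoped RealInnerProductSpace ContDiff

namespace Vale.Agent.P218WV

open Vale.Agent.P218UA Vale.Agent.P218WA Vale.Agent.P218UV
open Vale.Agent.P218.H63 (lap)

/-- the standing assumptions -/
structure Ok (w : ℝ → E3 → ℝ) (I Z : Set ℝ) (A : ℝ) (ψ : ℝ × E3 → ℝ) : Prop where
  cw : CalcW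
  hw : IsW0 w I Z A
  sm : ContDiff ℝ 2 ψ
  cs : HasCompactSupport ψ
  sub : tsupport ψ ⊆ I ×ˢ univ
  pos : ∀ p, 0 ≤ ψ p

/-- bounded and continuous on the set `T` -/
def Bc (T : Set (ℝ × E3)) (G : ℝ × E3 → ℝ) : Prop := ContinuousOn G T ∧ ∃ B, ∀ p ∈ T, |G p| ≤ B

/-- the strip of space-time over `(c, d]` -/
def st (c d : ℝ) : Set (ℝ × E3) := Ioc c d ×ˢ univ

theorem meas_st (c d : ℝ) : MeasurableSet (st c d) := measurableSet_Ioc.prod MeasurableSet.univ

/-- the heat operator -/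
noncomputable abbrev ht (w : ℝ → E3 → ℝ) (V : ℝ × E3 → ℝ) (p : ℝ × E3) : ℝ :=
  heat w (fun t x => V (t, x)) p.1 p.2

/-- the adjoint operator -/
noncomputable abbrev ad (w : ℝ → E3 → ℝ) (ψ : ℝ × E3 → ℝ) (p : ℝ × E3) : ℝ :=
  adj w (fun t x => ψ (t, x)) p.1 p.2

/-- the weighted integral at the time `t` -/
noncomputable def sl (w : ℝ → E3 → ℝ) (ψ G : ℝ × E3 → ℝ) (t : ℝ) : ℝ :=
  ∫ x, ψ (t, x) * G (t, x) ∂(ar (w t))

theorem bd_trT {V : ℝ × E3 → ℝ} (hV : ContDiff ℝ 2 V) {K : Set (ℝ × E3)} (hK : IsCompact K) :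
    ∃ C, 0 ≤ C ∧ ∀ p ∈ K, ∀ n : E3, ‖n‖ = 1 → |deriv (fun s => V (s, p.2)) p.1| ≤ C ∧
      |trT n (hs (fun x => V (p.1, x)) p.2)| ≤ C ∧
      |⟪gradient (fun x => V (p.1, x)) p.2, n⟫| ≤ C ∧ |V p| ≤ C := by
  have h0 := hK.prod (isCompact_sphere (0 : E3) 1)
  obtain ⟨C, hC⟩ := h0.exists_bound_of_continuousOn (f := fun q : (ℝ × E3) × E3 =>
    (deriv (fun s => V (s, q.1.2)) q.1.1, trT q.2 (hs (fun x => V (q.1.1, x)) q.1.2),
      ⟪gradient (fun x => V (q.1.1, x)) q.1.2, q.2⟫, V q.1)) (Continuous.continuousOn (by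
    have c1 := continuous_iff_continuousAt.2 fun p =>
      continuousAt_dt (p := p) (hV.contDiffAt.of_le (by norm_num))
    have c2 := continuous_iff_continuousAt.2 fun p => continuousAt_hs (p := p) hV.contDiffAt
    have c3 := continuous_iff_continuousAt.2 fun p =>
      (contDiffAt_gradient (p := p) (m := 0) hV.contDiffAt (by norm_num)).continuousAt
    exact (c1.comp continuous_fst).prodMk ((continuous_trT.comp (continuous_snd.prodMk
      (c2.comp continuous_fst))).prodMk (((c3.comp continuous_fst).inner continuous_snd).prodMk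
        (hV.continuous.comp continuous_fst)))))
  refine ⟨|C|, abs_nonneg _, fun p hp n hn => ?_⟩
  have h1 := (hC (p, n) ⟨hp, by simpa using hn⟩).trans (le_abs_self C)
  simpa only [Prod.norm_def, max_le_iff, Real.norm_eq_abs] using h1

variable {w : ℝ → E3 → ℝ} {I Z : Set ℝ} {A c d t : ℝ} {ψ G G' F V h : ℝ × E3 → ℝ} {p : ℝ × E3}

namespace Ok

variable (o : Ok w I Z A ψ)
include o

theorem reg (hp : p ∈ trk w ψ) : p.1 ∈ I \ Z := ⟨(o.sub hp.1).1, o.hw.notMem hp.2⟩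

theorem unit (hp : p ∈ trk w ψ) : ‖gradient (w p.1) p.2‖ = 1 :=
  (o.hw.eik p.1 (o.reg hp).1 p.2 hp.2).self_of_nhds

theorem loc (hp : p ∈ trk w ψ) : ∃ J, IsFlow w J ∧ p.1 ∈ J :=
  let ⟨_, _, h1, _, h2⟩ := o.hw.loc (o.reg hp)
  ⟨_, h2.toIsFlow, h1⟩

theorem meas : MeasurableSet (trk w ψ) := by
  have h1 := o.hw.isOpen_reg.prod (isOpen_univ (X := E3))
  have h2 := o.hw.smooth.continuousOn.isOpen_inter_preimage h1 (isOpen_compl_singleton (x := 0))
  exact (((isClosed_tsupport ψ).measurableSet.inter h1.measurableSet).diff h2.measurableSet).congr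
    (Set.ext fun p => ⟨fun hp => ⟨hp.1.1, by_contra fun h => hp.2 ⟨hp.1.2, h⟩⟩,
      fun hp => ⟨⟨hp.1, o.reg hp, trivial⟩, fun h => h.2 hp.2⟩⟩)

theorem cpt (h : Icc c d ⊆ I \ Z) : IsCompact (trk w ψ ∩ Icc c d ×ˢ univ) := by
  have h1 := (isClosed_tsupport ψ).inter ((isClosed_Icc (a := c) (b := d)).prod isClosed_univ)
  refine o.cs.isCompact.of_isClosed_subset ?_ fun p hp => hp.1.1
  rw [trk, inter_right_comm]
  exact ContinuousOn.preimage_isClosed_of_isClosed (t := {0}) (o.hw.smooth.continuousOn.mono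
    fun p hp => ⟨h hp.2.1, trivial⟩) h1 isClosed_singleton

theorem ae : ∀ᵐ p ∂(stm w I), p ∉ trk w ψ → p ∉ tsupport ψ := by
  filter_upwards [o.cw.stm_ae w I Z A o.hw] with p hp hn h using hn ⟨h, hp.2⟩

theorem int (h0 : ∀ p, p ∉ tsupport ψ → h p = 0)
    (hm : AEStronglyMeasurable h ((stm w I).restrict (trk w ψ))) {C : ℝ}
    (hB : ∀ p ∈ trk w ψ, |h p| ≤ C * (1 + lap (w p.1) p.2 ^ 2)) : Integrable h (stm w I) := by
  have h1 : IntegrableOn (fun p : ℝ × E3 => C * (1 + lap (w p.1) p.2 ^ 2)) (tsupport ψ)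
      (stm w I) := ((integrableOn_const (o.cw.stm_fin w I Z A o.hw _ o.cs.isCompact o.sub).ne).add
        (o.cw.lap_int w I Z A o.hw _ o.cs.isCompact o.sub)).const_mul C
  refine IntegrableOn.integrable_of_ae_notMem_eq_zero (s := trk w ψ) ?_
    (o.ae.mono fun p hp hn => h0 p (hp hn))
  exact (h1.mono_set inter_subset_left).mono' hm ((ae_restrict_mem o.meas).mono hB)

theorem bc (hV : Continuous V) : Bc (trk w ψ) V :=
  let ⟨C, hC⟩ := o.cs.isCompact.exists_bound_of_continuousOn hV.continuousOn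
  ⟨hV.continuousOn, C, fun p hp => hC p hp.1⟩

theorem bc_ht (hV : ContDiff ℝ 2 V) : Bc (trk w ψ) (ht w V) := by
  obtain ⟨C, -, hC⟩ := bd_trT hV o.cs.isCompact
  refine ⟨fun p hp => ?_, C + C, fun p hp => ?_⟩
  · obtain ⟨J, h1, h2⟩ := o.loc hp
    exact (continuousAt_heat h1 h2 hV.contDiffAt).continuousWithinAt
  · obtain ⟨h1, h2, -⟩ := hC p hp.1 _ (o.unit hp)
    exact (abs_sub _ _).trans (add_le_add h1 h2)

theorem int_psi (hm : AEStronglyMeasurable F ((stm w I).restrict (trk w ψ))) {B : ℝ}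
    (hB : ∀ p ∈ trk w ψ, |F p| ≤ B) : Integrable (fun p => ψ p * F p) (stm w I) := by
  obtain ⟨C, h0, hC⟩ := bd_trT o.sm o.cs.isCompact
  refine o.int (C := C * |B|) (fun p hp => by rw [image_eq_zero_of_notMem_tsupport hp, zero_mul])
    (o.sm.continuous.aestronglyMeasurable.mul hm) fun p hp => ?_
  rw [abs_mul]
  exact (mul_le_mul (hC p hp.1 _ (o.unit hp)).2.2.2 ((hB p hp).trans (le_abs_self B)) (abs_nonneg _)
    h0).trans (le_mul_of_one_le_right (by positivity) (by nlinarith [sq_nonneg (lap (w p.1) p.2)]))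

theorem int_bc (hG : Bc (trk w ψ) G) : Integrable (fun p => ψ p * G p) (stm w I) :=
  let ⟨_, hB⟩ := hG.2
  o.int_psi (hG.1.aestronglyMeasurable o.meas) hB

theorem int_ad (hG : Bc (trk w ψ) G) : Integrable (fun p => G p * ad w ψ p) (stm w I) := by
  obtain ⟨C, h0, hC⟩ := bd_trT o.sm o.cs.isCompact
  obtain ⟨B, hB⟩ := hG.2
  refine o.int (C := |B| * (3 * C)) (fun p hp => by rw [ad, adj_eq_zero hp, mul_zero])
    ((hG.1.mul fun p hp => ?_).aestronglyMeasurable o.meas) fun p hp => ?_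
  · obtain ⟨J, h1, h2⟩ := o.loc hp
    exact (continuousAt_adj h1 h2 o.sm.contDiffAt).continuousWithinAt
  · obtain ⟨h1, h2, h3, h4⟩ := hC p hp.1 _ (o.unit hp)
    rw [abs_mul, mul_assoc]
    refine mul_le_mul ((hB p hp).trans (le_abs_self B)) ?_ (abs_nonneg _) (abs_nonneg _)
    have h5 := mul_le_mul_of_nonneg_left h3 (abs_nonneg (2 * lap (w p.1) p.2))
    have h6 : |lap (w p.1) p.2 ^ 2 * ψ p| ≤ lap (w p.1) p.2 ^ 2 * C := by
      rw [abs_mul, abs_of_nonneg (sq_nonneg _)]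
      exact mul_le_mul_of_nonneg_left h4 (sq_nonneg _)
    have h7 : |2 * lap (w p.1) p.2| ≤ 1 + lap (w p.1) p.2 ^ 2 :=
      abs_le.2 ⟨by nlinarith [sq_nonneg (lap (w p.1) p.2 + 1)],
        by nlinarith [sq_nonneg (lap (w p.1) p.2 - 1)]⟩
    have h8 := mul_le_mul_of_nonneg_right h7 h0
    rw [← abs_mul] at h5
    rw [abs_le] at h1 h2 h5 h6 ⊢
    simp only [ad, adj]
    constructor <;> nlinarith [h1.1, h1.2, h2.1, h2.2, h5.1, h5.2, h6.1, h6.2,
      mul_nonneg h0 (sq_nonneg (lap (w p.1) p.2))]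

theorem ae_sl (ht : t ∈ I) : ∀ᵐ x ∂(ar (w t)), (t, x) ∉ trk w ψ → ψ (t, x) = 0 := by
  filter_upwards [ae_restrict_mem (isClosed_eq (o.hw.slice ht).smooth.continuous
    continuous_const).measurableSet] with x hx hn
  exact image_eq_zero_of_notMem_tsupport fun h => hn ⟨h, hx⟩

theorem int_sl (hG : Bc (trk w ψ) G) (ht : t ∈ I) :
    Integrable (fun x => ψ (t, x) * G (t, x)) (ar (w t)) := by
  obtain ⟨B, hB⟩ := hG.2
  obtain ⟨C, hC⟩ := (o.bc o.sm.continuous).2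
  obtain ⟨R, hR, hK⟩ := (o.cs.isCompact.image continuous_snd).isBounded.subset_closedBall_lt 0 0
  have h1 := measurable_prodMk_left (x := t) o.meas
  refine IntegrableOn.integrable_of_ae_notMem_eq_zero (s := Prod.mk t ⁻¹' trk w ψ) ?_
    ((o.ae_sl ht).mono fun x hx hn => by rw [hx hn, zero_mul])
  refine ⟨(((o.sm.continuous.continuousOn.mul hG.1).comp (Continuous.prodMk_right t).continuousOn
    fun _ => id).aestronglyMeasurable h1), .restrict_of_bounded (C := C * B) (((measure_mono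
      fun x hx => hK ⟨_, hx.1, rfl⟩).trans (o.hw.ratio t ht 0 R hR)).trans_lt
        ENNReal.ofReal_lt_top) ?_⟩
  filter_upwards [ae_restrict_mem h1] with x hx
  rw [Real.norm_eq_abs, abs_mul]
  exact mul_le_mul (hC _ hx) (hB _ hx) (abs_nonneg _) ((abs_nonneg _).trans (hC _ hx))

theorem sl_le (hG : Bc (trk w ψ) G) (hG' : Bc (trk w ψ) G') (ht : t ∈ I) {ε : ℝ}
    (h : ∀ x, (t, x) ∈ trk w ψ → G (t, x) ≤ G' (t, x) + ε) :
    sl w ψ G t ≤ sl w ψ G' t + ε * sl w ψ 1 t := by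
  have h1 := (o.int_sl (o.bc (V := 1) continuous_const) ht).const_mul ε
  rw [sl, sl, sl, ← integral_const_mul, ← integral_add (o.int_sl hG' ht) h1]
  refine integral_mono_ae (o.int_sl hG ht) ((o.int_sl hG' ht).add h1) ?_
  filter_upwards [o.ae_sl ht] with x hx
  by_cases h2 : (t, x) ∈ trk w ψ
  · simpa [mul_add, mul_comm ε] using mul_le_mul_of_nonneg_left (h x h2) (o.pos _)
  · simp [hx h2]

theorem strip (hi : Integrable h (stm w I)) (hc : c ∈ I) (hd : d ∈ I) (hcd : c ≤ d) :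
    ∫ p in st c d, h p ∂(stm w I) = ∫ t in c..d, ∫ x, h (t, x) ∂(ar (w t)) := by
  rw [← integral_indicator (meas_st c d), (o.cw.stm_int w I Z A o.hw _
    (hi.indicator (meas_st c d))).2, intervalIntegral.integral_of_le hcd,
    ← inter_eq_self_of_subset_left (Ioc_subset_Icc_self.trans (o.hw.conn.out hc hd)),
    ← Measure.restrict_restrict measurableSet_Ioc, ← integral_indicator measurableSet_Ioc]
  refine integral_congr_ae (Eventually.of_forall fun t => ?_)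
  by_cases ht : t ∈ Ioc c d <;> simp [st, indicator, ht]

theorem green (hV : ContDiff ℝ 2 V) (h0 : ∀ p, 0 ≤ V p) (hc : c ∈ I \ Z) (hd : d ∈ I \ Z)
    (hcd : c ≤ d) : sl w ψ V d - sl w ψ V c
      ≤ ∫ p in st c d, (V p * ad w ψ p + ψ p * ht w V p) ∂(stm w I) := by
  rw [o.strip (h := fun p => V p * ad w ψ p + ψ p * ht w V p)
    ((o.int_ad (o.bc hV.continuous)).add (o.int_bc (o.bc_ht hV))) hc.1 hd.1 hcd]
  simpa only [add_comm, sl, ad, ht] using (o.cw.green w I Z A o.hw I (fun t x => ψ (t, x)) (fun t x => V (t, x))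
    ⟨o.hw.isOpen, o.hw.conn, subset_rfl, o.sm.contDiffOn, _, o.cs.isCompact.image continuous_snd,
      fun t _ x hx => image_eq_zero_of_notMem_tsupport fun h => hx ⟨_, h, rfl⟩⟩ hV.contDiffOn c hc d
    hd hcd fun t _ x => mul_nonneg (o.pos _) (h0 _)).2

/-- comparison with smooth functions -/
theorem cmp (hG : Bc (trk w ψ) G) (hc : c ∈ I \ Z) (hd : d ∈ I \ Z) (hcd : c ≤ d) {R D : ℝ}
    (H : ∀ ε > 0, ε ≤ 1 → ∃ V, ContDiff ℝ 2 V ∧ (∀ p, 0 ≤ V p) ∧
      (∀ x, (d, x) ∈ trk w ψ → G (d, x) ≤ V (d, x) + ε) ∧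
      (∀ x, (c, x) ∈ trk w ψ → V (c, x) ≤ G (c, x) + ε) ∧
      ∫ p in st c d, (V p * ad w ψ p + ψ p * ht w V p) ∂(stm w I) ≤ R + ε * D) :
    sl w ψ G d - sl w ψ G c ≤ R := by
  have h1 : Tendsto (fun ε : ℝ => R + ε * (D + sl w ψ 1 d + sl w ψ 1 c)) (𝓝[>] 0) (𝓝 R) := by
    refine tendsto_nhdsWithin_of_tendsto_nhds (Continuous.tendsto' (by fun_prop) _ _ (by simp))
  refine ge_of_tendsto h1 ?_
  filter_upwards [Ioc_mem_nhdsGT one_pos] with ε hε
  obtain ⟨V, h2, h3, h4, h5, h6⟩ := H ε hε.1 hε.2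
  have h7 := o.sl_le hG (o.bc h2.continuous) hd.1 h4
  have h8 := o.sl_le (o.bc h2.continuous) hG hc.1 h5
  have h9 := o.green h2 h3 hc hd hcd
  linarith

theorem mono {f g : ℝ × E3 → ℝ} (hf : Integrable f (stm w I)) (hg : Integrable g (stm w I))
    (h0 : ∀ p, p ∉ tsupport ψ → f p ≤ g p) {S : Set (ℝ × E3)} (hS : MeasurableSet S)
    (h : ∀ p ∈ trk w ψ, p ∈ S → f p ≤ g p) :
    ∫ p in S, f p ∂(stm w I) ≤ ∫ p in S, g p ∂(stm w I) := by
  refine integral_mono_ae hf.integrableOn hg.integrableOn ?_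
  filter_upwards [ae_restrict_mem hS, ae_restrict_of_ae o.ae] with p h1 h2
  by_cases h3 : p ∈ trk w ψ
  exacts [h p h3 h1, h0 p (h2 h3)]

end Ok

end Vale.Agent.P218WV
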