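import Vale.Agent.P218WV.Bas

/-! Team P218W, block VISC: barriers imply the integrated inequality for weak flows. -/

open MeasureTheory Set Filter Topology Metric
open scoped RealInnerProductSpace ContDiff

namespace Vale.Agent.P218WV

open Vale.Agent.P218UA Vale.Agent.P218WA Vale.Agent.P218UV

theorem chain {Z : Set ℝ} (hZ : volume Z = 0) {R : ℝ → ℝ → Prop} {a b : ℝ}
    (tr : ∀ x ∈ Icc a b, ∀ y ∈ Icc a b, ∀ z ∈ Icc a b, x ≤ y → y ≤ z → R x y → R y z → R x z)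
    (loc : ∀ t ∈ Icc a b, ∃ N ∈ 𝓝 t, ∀ c ∈ N \ Z, ∀ d ∈ N \ Z, c ≤ d → R c d) (ha : a ∉ Z)
    (hb : b ∉ Z) (hab : a ≤ b) : R a b := by
  choose N h1 h2 using loc
  obtain ⟨δ, hδ, h3⟩ := lebesgue_number_lemma_of_metric (c := fun t : Icc a b => interior (N t t.2))
    isCompact_Icc (fun _ => isOpen_interior) fun t ht =>
      mem_iUnion.2 ⟨⟨t, ht⟩, mem_interior_iff_mem_nhds.2 (h1 t ht)⟩
  have h4 : ∀ d ∈ Icc a b, d ∉ Z → ∀ c, c ∉ Z → c ≤ d → d - c < δ → R c d := fun d hd hd' c hc e e' => by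
    obtain ⟨t, ht⟩ := h3 d hd
    exact h2 t t.2 c ⟨interior_subset (ht (by
      rw [mem_ball, Real.dist_eq, abs_sub_comm, abs_of_nonneg (sub_nonneg.2 e)]; exact e')), hc⟩ d
      ⟨interior_subset (ht (mem_ball_self hδ)), hd'⟩ e
  have h5 : ∀ n : ℕ, ∀ d ∈ Icc a b, d ∉ Z → d - a < n * (δ / 2) → R a d := fun n => by
    induction n with
    | zero => exact fun d hd _ e => absurd e (by simpa using hd.1)
    | succ n ih =>
      intro d hd hd' e
      by_cases h6 : d - a < δ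
      · exact h4 d hd hd' a ha hd.1 h6
      obtain ⟨m, hm, hm'⟩ := exists_notMem hZ (show d - δ < d - δ / 2 by linarith)
      have h7 : m ∈ Icc a b := ⟨by linarith [hm.1], by linarith [hm.2, hd.2]⟩
      push_cast at e
      exact tr a ⟨le_rfl, hab⟩ m h7 d hd h7.1 (by linarith [hm.2]) (ih m h7 hm' (by linarith [hm.2]))
        (h4 d hd hd' m hm' (by linarith [hm.2]) (by linarith [hm.1]))
  obtain ⟨n, hn⟩ := exists_nat_gt ((b - a) / (δ / 2))
  exact h5 n b ⟨hab, le_rfl⟩ hb ((div_lt_iff₀ (half_pos hδ)).1 hn)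

/-- the crude barrier -/
noncomputable def quad (a : ℝ) (l z : E3) (C₁ C d : ℝ) (q : ℝ × E3) : ℝ :=
  a + ⟪l, q.2 - z⟫ - C₁ * ‖q.2 - z‖ ^ 2 - C * (d - q.1)

theorem cd_quad (a : ℝ) (l z : E3) (C₁ C d : ℝ) : ContDiff ℝ 2 (quad a l z C₁ C d) :=
  ((contDiff_const.add (contDiff_const.inner ℝ (contDiff_snd.sub contDiff_const))).sub
    (contDiff_const.mul ((contDiff_snd.sub contDiff_const).norm_sq ℝ))).sub
      (contDiff_const.mul (contDiff_const.sub contDiff_fst))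

theorem lop_quad (a : ℝ) (l z : E3) (C₁ C d : ℝ) (σ : Fin 3 → ℝ × E3 → ℝ × E3) (p : ℝ × E3) :
    Lop (1, 0) σ (quad a l z C₁ C d) p = C + 2 * C₁ * ∑ i, ‖(σ i p).2‖ ^ 2 := by
  have h0 : ∀ q : ℝ × E3, HasFDerivAt (fun q : ℝ × E3 => q.2 - z) (.snd ℝ ℝ E3) q := fun q =>
    hasFDerivAt_snd.sub_const z
  have h1 : ∀ q u, fderiv ℝ (quad a l z C₁ C d) q u
      = ⟪l, u.2⟫ - C₁ * (2 * ⟪u.2, q.2 - z⟫) + C * u.1 := fun q u => by
    have h := ((((innerSL ℝ l).hasFDerivAt.comp q (h0 q)).const_add a).sub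
      ((h0 q).norm_sq.const_mul C₁)).sub ((hasFDerivAt_fst.const_sub d).const_mul C)
    erw [h.fderiv]
    simp [inner_sub_right, real_inner_comm]
  have h2 : ∀ u, fderiv ℝ (fderiv ℝ (quad a l z C₁ C d)) p u u = -(2 * C₁ * ‖u.2‖ ^ 2) := fun u => by
    have h := ((((((innerSL ℝ u.2).hasFDerivAt.comp p (h0 p)).const_mul 2).const_mul C₁).const_sub
      ⟪l, u.2⟫).add_const (C * u.1))
    rw [dd_eq (cd_quad a l z C₁ C d).contDiffAt]
    simp only [h1]
    erw [h.fderiv]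
    simp
    ring
  simp [Lop, h1, h2, Finset.mul_sum]

variable {w : ℝ → E3 → ℝ} {I Z : Set ℝ} {A B c d t : ℝ} {ψ G F : ℝ × E3 → ℝ} {p : ℝ × E3}

theorem sig_le (hn : ‖gradient (w p.1) p.2‖ = 1) : ∑ i, ‖(sig w i p).2‖ ^ 2 ≤ 3 := by
  refine (Finset.sum_le_sum (g := fun _ => (1 : ℝ)) fun i _ => ?_).trans (by simp)
  rw [sig, gT, norm_sub_sq_real, norm_smul, hn, inner_smul_right, real_inner_comm]
  simp only [EuclideanSpace.basisFun_apply, PiLp.norm_single, norm_one, Real.norm_eq_abs, mul_one,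
    sq_abs]
  nlinarith [sq_nonneg ⟪EuclideanSpace.single i (1 : ℝ), gradient (w p.1) p.2⟫]

namespace Ok

variable (o : Ok w I Z A ψ)
include o

theorem int_abs : Integrable (fun p => |ad w ψ p|) (stm w I) := by
  simpa using (o.int_ad (o.bc (V := 1) continuous_const)).abs

theorem int_one : Integrable ψ (stm w I) := by
  simpa using o.int_bc (o.bc (V := 1) continuous_const)

omit o in
theorem off (hp : p ∉ tsupport ψ) : ad w ψ p = 0 ∧ ψ p = 0 :=
  ⟨adj_eq_zero hp, image_eq_zero_of_notMem_tsupport hp⟩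

/-- the inequality on an interval of regular times -/
theorem step₁ (hG : Bc (trk w ψ) G) (hm : AEStronglyMeasurable F ((stm w I).restrict (trk w ψ)))
    (hB : ∀ p ∈ trk w ψ, 0 ≤ G p ∧ G p ≤ B ∧ |F p| ≤ B)
    (hb : ∀ p ∈ trk w ψ, ∃ b : ℝ × E3 → ℝ, ContDiffAt ℝ 2 b p ∧ b p = G p ∧
      (∀ᶠ q in 𝓝[trk w ψ] p, b q ≤ G q) ∧ ht w b p ≤ F p) (h : Icc c d ⊆ I \ Z) (hcd : c ≤ d) :
    sl w ψ G d - sl w ψ G c ≤ ∫ p in st c d, (G p * ad w ψ p + ψ p * F p) ∂(stm w I) := by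
  have hK := o.cpt h
  set K := trk w ψ ∩ Icc c d ×ˢ univ with hKd
  have : IsFiniteMeasure ((stm w I).restrict K) := ⟨by
    rw [Measure.restrict_apply_univ]
    exact o.cw.stm_fin w I Z A o.hw _ hK fun p hp => o.sub hp.1.1⟩
  have hae : ∀ᵐ p ∂(stm w I).restrict K, p ∈ K := ae_restrict_mem hK.measurableSet
  have hFi : IntegrableOn F K (stm w I) := Integrable.of_bound
    (hm.mono_set inter_subset_left) B (hae.mono fun p hp => (hB p hp.1).2.2)
  obtain ⟨M, hM⟩ := o.sm.continuous.bounded_above_of_compact_support o.cs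
  have hM0 : 0 ≤ M := (norm_nonneg _).trans (hM 0)
  refine o.cmp hG (h ⟨le_rfl, hcd⟩) (h ⟨hcd, le_rfl⟩) hcd (D := 2 * (∫ p in st c d, |ad w ψ p|
    ∂(stm w I)) + (∫ p in st c d, ψ p ∂(stm w I)) + 2 * M) fun ε hε _ => ?_
  obtain ⟨F', h1, h2, h3, h4⟩ := exists_lsc _ hFi B
    (hae.mono fun p hp => (le_abs_self _).trans (hB p hp.1).2.2) hε
  have h2' : ∀ p ∈ K, F p ≤ F' p := fun p hp => h2 p ((le_abs_self _).trans (hB p hp.1).2.2)
  obtain ⟨g, hg, hg'⟩ := exists_smooth_approx (v := ((1 : ℝ), (0 : E3))) (σ := sig w) (G := G)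
    (F := F') (B := B) hK (fun i p hp => let ⟨_, e1, e2⟩ := o.loc hp.1
      (continuousAt_sig e1 e2 i).continuousWithinAt)
    (fun p hp => ⟨by linarith [(hB p hp.1).1, (hB p hp.1).2.1],
      (abs_le.1 (hB p hp.1).2.2).1.trans (h2' p hp)⟩)
    (hG.1.mono inter_subset_left).upperSemicontinuousOn (h1.lowerSemicontinuousOn _)
    (fun p hp => by
      obtain ⟨b, e1, e2, e3, e4⟩ := hb p hp.1
      refine ⟨b, e1, e2, e3.filter_mono (nhdsWithin_mono _ inter_subset_left), ?_⟩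
      rw [← heat_eq e1 (o.unit hp.1)]
      exact e4.trans (h2' p hp)) (half_pos hε)
  set V : ℝ × E3 → ℝ := fun p => (g p + ε / 2) * Real.smoothTransition ((g p + ε / 2) / (ε / 4))
    with hV
  have v1 : ContDiff ℝ 2 V := (hg.add contDiff_const).mul
    (Real.smoothTransition.contDiff.comp ((hg.add contDiff_const).div_const _))
  have v2 : ∀ p ∈ K, V =ᶠ[𝓝 p] fun q => g q + 0 * g q + ε / 2 := fun p hp => by
    filter_upwards [hg.continuous.continuousAt.eventually (lt_mem_nhds (show -(ε / 4) < g p by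
      linarith [(hg' p hp).1, (hB p hp.1).1]))] with q hq
    simp only [hV]
    rw [Real.smoothTransition.one_of_one_le ((one_le_div (by positivity)).2 (by linarith))]
    ring
  have v3 : ∀ p ∈ K, G p ≤ V p ∧ V p ≤ G p + ε ∧ ht w V p ≤ F' p + ε := fun p hp => by
    obtain ⟨e1, e2, e3⟩ := hg' p hp
    rw [ht, heat_eq v1.contDiffAt (o.unit hp.1), Lop_congr (v2 p hp), (v2 p hp).self_of_nhds,
      Lop_add_mul hg.contDiffAt hg.contDiffAt]
    exact ⟨by linarith, by linarith, by linarith⟩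
  refine ⟨V, v1, fun p => ?_, fun x hx => by linarith [(v3 _ ⟨hx, ⟨hcd, le_rfl⟩, trivial⟩).1],
    fun x hx => (v3 _ ⟨hx, ⟨le_rfl, hcd⟩, trivial⟩).2.1, ?_⟩
  · rcases le_total 0 (g p + ε / 2) with e | e
    · exact mul_nonneg e (Real.smoothTransition.nonneg _)
    · simp only [hV]
      rw [Real.smoothTransition.zero_of_nonpos (div_nonpos_of_nonpos_of_nonneg e (by positivity)),
        mul_zero]
  have i1 := (o.int_ad hG).add (o.int_psi hm fun p hp => (hB p hp).2.2)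
  have i2 : Integrable (K.indicator fun p => F' p - F p) (stm w I) :=
    (integrable_indicator_iff hK.measurableSet).2 (h3.sub hFi)
  have i3 := (o.int_abs.const_mul ε).add (o.int_one.const_mul ε)
  have i4 := i3.add (i2.const_mul M)
  have h5 : ∫ p in st c d, K.indicator (fun p => F' p - F p) p ∂(stm w I) ≤ ε := by
    refine (setIntegral_le_integral i2 (Eventually.of_forall fun p =>
      indicator_nonneg (fun q hq => sub_nonneg.2 (h2' q hq)) p)).trans ?_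
    rw [integral_indicator hK.measurableSet, integral_sub h3 hFi]
    linarith
  have h6 := o.mono ((o.int_ad (o.bc v1.continuous)).add (o.int_bc (o.bc_ht v1))) (i1.add i4)
    (fun p hp => by simp [(off hp).1, (off (w := w) hp).2, indicator_of_notMem (show p ∉ K from fun e => hp e.1.1)])
    (meas_st c d) fun p hp hp' => by
      have e0 : p ∈ K := ⟨hp, Ioc_subset_Icc_self hp'.1, trivial⟩
      obtain ⟨e1, e2, e3⟩ := v3 p e0
      have e4 := mul_le_mul_of_nonneg_left e3 (o.pos p)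
      have e6 := mul_le_mul_of_nonneg_right ((le_abs_self _).trans (hM p)) (sub_nonneg.2 (h2' p e0))
      have e7 : (V p - G p) * ad w ψ p ≤ ε * |ad w ψ p| :=
        (mul_le_mul_of_nonneg_left (le_abs_self _) (sub_nonneg.2 e1)).trans
          (mul_le_mul_of_nonneg_right (by linarith) (abs_nonneg _))
      simp only [Pi.add_apply, indicator_of_mem e0]
      nlinarith
  rw [integral_add' i1.integrableOn i4.integrableOn, integral_add' i3.integrableOn
    (i2.const_mul M).integrableOn, integral_add' (o.int_abs.const_mul ε).integrableOn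
    (o.int_one.const_mul ε).integrableOn, integral_const_mul, integral_const_mul,
    integral_const_mul] at h6
  have h7 := mul_le_mul_of_nonneg_left h5 hM0
  have h8 : 0 ≤ ε * ∫ p in st c d, |ad w ψ p| ∂(stm w I) :=
    mul_nonneg hε.le (integral_nonneg fun _ => abs_nonneg _)
  simp only [Pi.add_apply] at h6
  nlinarith

/-- the inequality across the singular times -/
theorem step₂ (hG : Bc (trk w ψ) G) (hB : ∀ p ∈ trk w ψ, 0 ≤ G p ∧ G p ≤ B) (hB0 : 0 ≤ B) {C κ : ℝ}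
    (hC : 0 ≤ C) (hκ : 0 < κ) (hb : ∀ p ∈ trk w ψ, ∀ η > 0, ∃ l : E3, ‖l‖ ≤ C ∧
      ∀ q ∈ trk w ψ, q.1 ≤ p.1 → p.1 - q.1 ≤ κ → ‖q.2 - p.2‖ ≤ κ →
        G p + ⟪l, q.2 - p.2⟫ - C * ‖q.2 - p.2‖ ^ 2 - C * (p.1 - q.1) - η ≤ G q) :
    ∃ D, 0 ≤ D ∧ ∀ c ∈ I \ Z, ∀ d ∈ I \ Z, c ≤ d → d - c ≤ κ → sl w ψ G d - sl w ψ G c
      ≤ ∫ p in st c d, ((B + 1) * |ad w ψ p| + D * ψ p) ∂(stm w I) := by
  obtain ⟨C₁, e₁⟩ : ∃ C₁, C₁ = C + B / κ ^ 2 + C / κ := ⟨_, rfl⟩
  have p1 : 0 ≤ B / κ ^ 2 := by positivity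
  have p2 : 0 ≤ C / κ := by positivity
  have p3 : 0 ≤ C₁ := by linarith
  refine ⟨C + 2 * C₁ * 3, by positivity, fun c hc d hd hcd hκ' =>
    o.cmp hG hc hd hcd (D := 0) fun ε hε hε1 => ?_⟩
  have hK := o.cpt (c := d) (d := d) (by simpa using hd)
  choose l l1 l2 using fun p : ↥(trk w ψ ∩ Icc d d ×ˢ univ) => hb p p.2.1 (ε / 3) (by positivity)
  obtain ⟨b, eb⟩ : ∃ b : ↥(trk w ψ ∩ Icc d d ×ˢ univ) → ℝ × E3 → ℝ,
    b = fun p : ↥(trk w ψ ∩ Icc d d ×ˢ univ) => quad (G p - ε / 3) (l p) p.1.2 C₁ C d := ⟨_, rfl⟩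
  have t0 : ∀ p : ↥(trk w ψ ∩ Icc d d ×ˢ univ), p.1.1 = d := fun p => le_antisymm p.2.2.1.2 p.2.2.1.1
  obtain ⟨s, hs⟩ := hK.elim_nhds_subcover' (fun p hp => {q | q ∈ trk w ψ → G q ≤ b ⟨p, hp⟩ q + ε})
    fun p hp => by
      have e1 := eventually_nhdsWithin_iff.1 ((hG.1 p hp.1).eventually
        (gt_mem_nhds (show G p < G p + ε / 3 by linarith)))
      have e2 := (cd_quad (G p - ε / 3) (l ⟨p, hp⟩) p.2 C₁ C d).continuous.continuousAt.eventually
        (lt_mem_nhds (show G p - 2 * ε / 3 < quad (G p - ε / 3) (l ⟨p, hp⟩) p.2 C₁ C d p by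
          simp [quad, show p.1 = d from t0 ⟨p, hp⟩]; linarith))
      filter_upwards [e1, e2] with q e3 e4 hq
      rw [eb]
      linarith [e3 hq]
  obtain ⟨g, eg⟩ : ∃ g : Option ↥(trk w ψ ∩ Icc d d ×ˢ univ) → ℝ × E3 → ℝ,
    g = fun j => j.elim (fun _ => 0) b := ⟨_, rfl⟩
  have g0 : none ∈ Finset.insertNone s := Finset.none_mem_insertNone
  have g1 : ∀ j, ContDiff ℝ 2 (g j) := by
    rintro (_ | j) <;> rw [eg, eb]
    exacts [contDiff_const, cd_quad _ _ _ _ _ _]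
  have g2 : ∀ j, ∀ q ∈ trk w ψ, c ≤ q.1 → q.1 ≤ d → g j q ≤ G q := by
    rintro (_ | j) q hq h1 h2 <;> rw [eg, eb]
    · exact (hB q hq).1
    have e1 := mul_le_mul_of_nonneg_right (show C ≤ C₁ by linarith) (sq_nonneg ‖q.2 - j.1.2‖)
    simp only [Option.elim_some, quad]
    by_cases h3 : ‖q.2 - j.1.2‖ ≤ κ
    · have := l2 j q hq (by rwa [t0]) (by rw [t0]; linarith) h3
      rw [t0] at this
      linarith
    have e2 := (real_inner_le_norm (l j) (q.2 - j.1.2)).trans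
      (mul_le_mul_of_nonneg_right (l1 j) (norm_nonneg _))
    have e3 := mul_le_mul_of_nonneg_left (pow_le_pow_left₀ hκ.le (not_le.1 h3).le 2) p1
    have e4 := mul_le_mul_of_nonneg_left (mul_le_mul_of_nonneg_right (not_le.1 h3).le
      (norm_nonneg (q.2 - j.1.2))) p2
    rw [div_mul_cancel₀ _ (by positivity)] at e3
    rw [← mul_assoc, div_mul_cancel₀ _ hκ.ne'] at e4
    have e5 := mul_nonneg hC (sub_nonneg.2 h2)
    have e6 := mul_nonneg hC (sq_nonneg ‖q.2 - j.1.2‖)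
    rw [e₁]
    nlinarith [(hB q hq).1, (hB j j.2.1).2]
  have g3 : ∀ j, ∀ q ∈ trk w ψ, Lop (1, 0) (sig w) (g j) q ≤ C + 2 * C₁ * 3 := by
    rintro (_ | j) q hq <;> rw [eg, eb]
    · simp [Lop]; positivity
    · simp only [Option.elim_some, lop_quad]
      gcongr
      exact sig_le (o.unit hq)
  have n0 : (0 : ℝ) < (Finset.insertNone s).card := by exact_mod_cast Finset.card_pos.2 ⟨_, g0⟩
  have hβ := div_pos n0 hε
  have v1 := contDiff_smax (β := (Finset.insertNone s).card / ε) ⟨_, g0⟩ fun j _ => g1 j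
  have v2 := fun p => le_smax (g := g) hβ g0 p
  have v3 := fun q hq h1 h2 => smax_le (g := g) ⟨_, g0⟩ hβ (p := q) fun j _ => g2 j q hq h1 h2
  rw [div_div_cancel₀ n0.ne'] at v3
  rw [eg] at v2
  refine ⟨_, v1, eg ▸ v2, fun x hx => ?_, fun x hx => v3 _ hx le_rfl hcd, ?_⟩
  · obtain ⟨j, hj, e⟩ := mem_iUnion₂.1 (hs (show (d, x) ∈ _ from ⟨hx, ⟨le_rfl, le_rfl⟩, trivial⟩))
    have := le_smax (g := g) hβ (Finset.some_mem_insertNone.2 hj) (d, x)
    rw [eg] at this ⊢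
    exact (e hx).trans (add_le_add_left this _)
  rw [mul_zero, add_zero]
  refine o.mono ((o.int_ad (o.bc v1.continuous)).add (o.int_bc (o.bc_ht v1)))
    ((o.int_abs.const_mul _).add (o.int_one.const_mul _))
    (fun p hp => by simp [(off hp).1, (off (w := w) hp).2]) (meas_st c d) fun p hp hp' => ?_
  refine add_le_add ((mul_le_mul_of_nonneg_left (le_abs_self _) (eg ▸ v2 p)).trans
    (mul_le_mul_of_nonneg_right (by linarith [v3 p hp hp'.1.1.le hp'.1.2, (hB p hp).2])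
      (abs_nonneg _))) ?_
  beta_reduce
  rw [mul_comm _ (ψ p), ht, heat_eq v1.contDiffAt (o.unit hp)]
  refine mul_le_mul_of_nonneg_left ((Lop_smax ⟨_, g0⟩ (fun j _ => g1 j) hβ _ _ p).trans ?_) (o.pos p)
  rw [div_le_iff₀ (sexp_pos ⟨_, g0⟩ p), sexp, Finset.mul_sum]
  exact Finset.sum_le_sum fun j _ => (mul_comm _ _).trans_le
    (mul_le_mul_of_nonneg_right (g3 j p hp) (Real.exp_pos _).le)

theorem small {k : ℝ × E3 → ℝ} (hk : Integrable k (stm w I)) {ε : ℝ} (hε : 0 < ε) :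
    ∃ O, IsOpen O ∧ Z ⊆ O ∧ ∫ p in O ×ˢ univ, k p ∂(stm w I) < ε := by
  have h1 := tendsto_setIntegral_of_antitone (μ := stm w I) (f := k)
    (s := fun n : ℕ => thickening (1 / ((n : ℝ) + 1)) Z ×ˢ (univ : Set E3))
    (fun _ => isOpen_thickening.measurableSet.prod .univ)
    (fun m n h => prod_mono_left (thickening_mono (Nat.one_div_le_one_div h) _))
    ⟨0, hk.integrableOn⟩
  rw [setIntegral_measure_zero k (measure_mono_null ?_
    (ae_iff.1 (o.cw.stm_ae w I Z A o.hw)))] at h1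
  · obtain ⟨n, hn⟩ := (h1.eventually (gt_mem_nhds hε)).exists
    exact ⟨_, isOpen_thickening, self_subset_thickening Nat.one_div_pos_of_nat _, hn⟩
  refine fun p hp hn => hn.1.2 (o.hw.closed.closure_subset (Metric.mem_closure_iff.2 fun δ hδ => ?_))
  obtain ⟨n, hn⟩ := exists_nat_one_div_lt hδ
  obtain ⟨z, h2, h3⟩ := mem_thickening_iff.1 (mem_iInter.1 hp n).1
  exact ⟨z, h2, h3.trans hn⟩

theorem ends : I = ∅ ∨ ∃ a ∈ I \ Z, ∃ b ∈ I \ Z, a ≤ b ∧ tsupport ψ ⊆ Ioo a b ×ˢ univ := by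
  refine I.eq_empty_or_nonempty.imp_right fun ⟨t, ht⟩ => ?_
  have hT := (o.cs.isCompact.image continuous_fst).insert t
  have h0 : insert t (Prod.fst '' tsupport ψ) ⊆ I := insert_subset ht (by
    rintro _ ⟨p, hp, rfl⟩; exact (o.sub hp).1)
  obtain ⟨m, h1, h2⟩ := hT.exists_isLeast (insert_nonempty _ _)
  obtain ⟨M, h3, h4⟩ := hT.exists_isGreatest (insert_nonempty _ _)
  obtain ⟨a, a', a1, a2⟩ := mem_nhds_iff_exists_Ioo_subset.1 (o.hw.isOpen.mem_nhds (h0 h1))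
  obtain ⟨b', b, b1, b2⟩ := mem_nhds_iff_exists_Ioo_subset.1 (o.hw.isOpen.mem_nhds (h0 h3))
  obtain ⟨x, x1, x2⟩ := exists_notMem o.hw.null a1.1
  obtain ⟨y, y1, y2⟩ := exists_notMem o.hw.null b1.2
  exact ⟨x, ⟨a2 ⟨x1.1, x1.2.trans a1.2⟩, x2⟩, y, ⟨b2 ⟨b1.1.trans y1.1, y1.2⟩, y2⟩,
    (x1.2.trans_le ((h2 h3).trans y1.1.le)).le, fun p hp => ⟨⟨x1.2.trans_le (h2 (.inr ⟨p, hp, rfl⟩)),
      (h4 (.inr ⟨p, hp, rfl⟩)).trans_lt y1.1⟩, trivial⟩⟩

end Ok

/-- **[VISC]** -/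
theorem viscW (hC : CalcW) : ViscW := by
  rintro w I Z A hw ψ₀ G F B₀ h1 h2 h3 h4 hm hB₀ hu hb ⟨C, κ, hκ, hcr⟩
  have o : Ok w I Z A fun p => ψ₀ p.1 p.2 := ⟨hC, hw, h1, h2, h3, fun p => h4 _ _⟩
  change Integrable (fun p => G p * ad w (fun p => ψ₀ p.1 p.2) p) _ ∧ _ ∧
    0 ≤ ∫ p, (G p * ad w (fun p => ψ₀ p.1 p.2) p + (fun p : ℝ × E3 => ψ₀ p.1 p.2) p * F p) ∂_
  set ψ : ℝ × E3 → ℝ := fun p => ψ₀ p.1 p.2
  have hB : ∀ p ∈ trk w ψ, 0 ≤ G p ∧ G p ≤ |B₀| ∧ |F p| ≤ |B₀| := fun p hp =>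
    ⟨(hB₀ p hp).1, (hB₀ p hp).2.1.trans (le_abs_self _), (hB₀ p hp).2.2.trans (le_abs_self _)⟩
  have hG : Bc (trk w ψ) G := by
    refine ⟨(continuousOn_iff_lower_upperSemicontinuousOn).2 ⟨fun p hp y hy => ?_, hu⟩, _,
      fun p hp => (abs_of_nonneg (hB p hp).1).trans_le (hB p hp).2.1⟩
    obtain ⟨b, e1, e2, e3, _⟩ := hb p hp
    filter_upwards [e3, e1.continuousAt.continuousWithinAt.eventually
      (lt_mem_nhds (show y < b p from e2 ▸ hy))] with q e5 e6 using e6.trans_le e5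
  have i1 := o.int_ad hG
  have i2 := o.int_psi hm fun p hp => (hB p hp).2.2
  refine ⟨i1, i2, ?_⟩
  obtain rfl | ⟨a, ha, b, hb', hab, hs⟩ := o.ends
  · simp [stm]
  obtain ⟨D, D0, hD⟩ := o.step₂ hG (fun p hp => ⟨(hB p hp).1, (hB p hp).2.1⟩) (abs_nonneg _)
    (abs_nonneg C) hκ fun p hp η hη => by
      obtain ⟨l, e1, e2⟩ := hcr p hp η hη
      refine ⟨l, e1.trans (le_abs_self _), fun q hq e3 e4 e5 => le_trans ?_ (e2 q hq e3 e4 e5)⟩
      gcongr <;> exact le_abs_self _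
  obtain ⟨f, ef⟩ : ∃ f : ℝ × E3 → ℝ, f = fun p => G p * ad w ψ p + ψ p * F p := ⟨_, rfl⟩
  obtain ⟨k, ek⟩ : ∃ k : ℝ × E3 → ℝ,
    k = fun p => 2 * (|B₀| + 1) * |ad w ψ p| + (D + |B₀|) * ψ p := ⟨_, rfl⟩
  have i3 : Integrable f (stm w I) := ef ▸ i1.add i2
  have i4 : Integrable k (stm w I) := ek ▸ (o.int_abs.const_mul _).add (o.int_one.const_mul _)
  have k0 : ∀ p, 0 ≤ k p := fun p => by have := o.pos p; rw [ek]; positivity
  have f0 : ∀ p, p ∉ tsupport ψ → f p = 0 := fun p hp => by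
    simp [ef, (Ok.off hp).1, (Ok.off (w := w) hp).2]
  rw [← ef]
  refine le_of_forall_pos_le_add fun ε hε => ?_
  obtain ⟨O, O1, O2, O3⟩ := o.small i4 hε
  have O4 : MeasurableSet (O ×ˢ (univ : Set E3)) := O1.measurableSet.prod .univ
  have i5 := i3.add (i4.indicator O4)
  have hI := hw.conn.out ha.1 hb'.1
  have key := chain hw.null (R := fun c d => sl w ψ G d - sl w ψ G c ≤
    ∫ p in st c d, (f + (O ×ˢ univ).indicator k) p ∂(stm w I)) (fun x _ y _ z _ e1 e2 e3 e4 => by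
      rw [st, ← Ioc_union_Ioc_eq_Ioc e1 e2, union_prod, setIntegral_union (Disjoint.set_prod_left
        (Ioc_disjoint_Ioc_of_le le_rfl) _ _) (meas_st y z) i5.integrableOn i5.integrableOn]
      exact (sub_add_sub_cancel' _ _ _).symm.trans_le (add_le_add e3 e4)) (fun t ht => ?_) ha.2 hb'.2
    hab
  · have z : ∀ t, t ∉ Ioo a b → sl w ψ G t = 0 := fun t ht => by
      simp [sl, image_eq_zero_of_notMem_tsupport fun h : (t, _) ∈ tsupport ψ => ht (hs h).1]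
    rw [z a (by simp), z b (by simp), sub_zero, integral_add' i3.integrableOn
      (i4.indicator O4).integrableOn, setIntegral_eq_integral_of_forall_compl_eq_zero
        (s := st a b) fun p hp => f0 p fun h => hp ⟨Ioo_subset_Ioc_self (hs h).1, trivial⟩] at key
    have := setIntegral_le_integral (s := st a b) (i4.indicator O4)
      (Eventually.of_forall fun p => indicator_nonneg (fun q _ => k0 q) p)
    exact key.trans (add_le_add_right (this.trans ((integral_indicator O4).trans_lt O3).le) _)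
  by_cases hZ : t ∈ Z
  · obtain ⟨x, y, e1, e2⟩ := mem_nhds_iff_exists_Ioo_subset.1 (inter_mem (inter_mem
      (hw.isOpen.mem_nhds (hI ht)) (O1.mem_nhds (O2 hZ))) (ball_mem_nhds t (half_pos hκ)))
    refine ⟨_, Ioo_mem_nhds e1.1 e1.2, fun c hc d hd hcd => (hD c ⟨(e2 hc.1).1.1, hc.2⟩ d
      ⟨(e2 hd.1).1.1, hd.2⟩ hcd ?_).trans (o.mono ((o.int_abs.const_mul _).add
        (o.int_one.const_mul _)) i5 (fun p hp => ?_) (meas_st c d) fun p hp hp' => ?_)⟩
    · linarith [(abs_lt.1 (show |c - t| < κ / 2 from (e2 hc.1).2)).1,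
        (abs_lt.1 (show |d - t| < κ / 2 from (e2 hd.1).2)).2]
    · simpa [(Ok.off hp).1, (Ok.off (w := w) hp).2, f0 p hp] using
        indicator_nonneg (fun q _ => k0 q) p
    · rw [Pi.add_apply f, indicator_of_mem (show p ∈ O ×ˢ univ from
        ⟨(e2 ⟨hc.1.1.trans hp'.1.1, hp'.1.2.trans_lt hd.1.2⟩).1.2, trivial⟩), ef, ek]
      have e3 := mul_le_mul_of_nonneg_left (abs_le.1 (hB p hp).2.2).1 (o.pos p)
      have e4 := mul_le_mul_of_nonneg_left (neg_abs_le (ad w ψ p)) (hB p hp).1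
      have e5 := mul_le_mul_of_nonneg_right (hB p hp).2.1 (abs_nonneg (ad w ψ p))
      simp only [Pi.add_apply]
      nlinarith [abs_nonneg (ad w ψ p)]
  · obtain ⟨x, y, e1, e2, -⟩ := hw.loc ⟨hI ht, hZ⟩
    refine ⟨_, Ioo_mem_nhds e1.1 e1.2, fun c hc d hd hcd => (o.step₁ hG hm hB hb
      ((ordConnected_Ioo.out hc.1 hd.1).trans e2) hcd).trans ?_⟩
    rw [← ef]
    exact integral_mono i3.integrableOn i5.integrableOn fun p =>
      le_add_of_nonneg_right (indicator_nonneg (fun q _ => k0 q) p)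

end Vale.Agent.P218WV
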